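import Vale.Agent.Lib.P331.Events

/-!
P331: pointwise facts about the threshold rule, valid for every arrival order
(independent backup by helper80 of the three statements of pool job 181; everything lives in
the namespace `Vale.Agent.Lib.P331.H80`).

* `thrRule_indep` : the accepted set is independent;
* `thrRule_strict_ge` : in a strict mode the unique non-loop element above the largest sample
  is accepted;
* `thrRule_weak_ge` : in a weak mode the accepted set is at least as large as the part above
  the threshold of any independent set.
-/

namespace Vale.Agent.Lib.P331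

open Finset

noncomputable section

open Classical

variable {E : Type} [Fintype E] [DecidableEq E]

namespace H80

theorem go_nil (M : Matroid E) (J : ℕ) (V : E → ℝ) (m : ThrMem E) :
    OnlineRule.go (thrRule M J) V [] m = ∅ := rfl

theorem go_cons (M : Matroid E) (J : ℕ) (V : E → ℝ) (m : ThrMem E) (a : E) (l : List E) :
    OnlineRule.go (thrRule M J) V (a :: l) m =
      if (thrStep M m a (V a)).1 then
        insert a (OnlineRule.go (thrRule M J) V l (thrStep M m a (V a)).2)
      else OnlineRule.go (thrRule M J) V l (thrStep M m a (V a)).2 := rfl

omit [Fintype E] in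
theorem step_pos (M : Matroid E) (m : ThrMem E) (a : E) (x : ℝ)
    (h : (if m.strict then m.thr < x else m.thr ≤ x) ∧ M.Indep (insert a (m.acc : Set E))) :
    thrStep M m a x = (true, ⟨m.strict, m.thr, insert a m.acc⟩) := by
  unfold thrStep
  exact if_pos h

omit [Fintype E] in
theorem step_neg (M : Matroid E) (m : ThrMem E) (a : E) (x : ℝ)
    (h : ¬ ((if m.strict then m.thr < x else m.thr ≤ x) ∧
      M.Indep (insert a (m.acc : Set E)))) :
    thrStep M m a x = (false, m) := by
  unfold thrStep
  exact if_neg h

theorem go_pos (M : Matroid E) (J : ℕ) (V : E → ℝ) (m : ThrMem E) (a : E) (l : List E)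
    (h : (if m.strict then m.thr < V a else m.thr ≤ V a) ∧
      M.Indep (insert a (m.acc : Set E))) :
    OnlineRule.go (thrRule M J) V (a :: l) m =
      insert a (OnlineRule.go (thrRule M J) V l ⟨m.strict, m.thr, insert a m.acc⟩) := by
  rw [go_cons, step_pos M m a (V a) h]
  rfl

theorem go_neg (M : Matroid E) (J : ℕ) (V : E → ℝ) (m : ThrMem E) (a : E) (l : List E)
    (h : ¬ ((if m.strict then m.thr < V a else m.thr ≤ V a) ∧
      M.Indep (insert a (m.acc : Set E)))) :
    OnlineRule.go (thrRule M J) V (a :: l) m = OnlineRule.go (thrRule M J) V l m := by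
  rw [go_cons, step_neg M m a (V a) h]
  rfl

omit [Fintype E] in
theorem union_insert_eq (s t : Finset E) (a : E) : s ∪ insert a t = insert a s ∪ t := by
  ext x
  simp only [Finset.mem_union, Finset.mem_insert]
  tauto

/-- The accepted set stays independent. -/
theorem go_indep (M : Matroid E) (J : ℕ) (V : E → ℝ) (l : List E) :
    ∀ m : ThrMem E, M.Indep (m.acc : Set E) →
      M.Indep ((m.acc ∪ OnlineRule.go (thrRule M J) V l m : Finset E) : Set E) := by
  induction l with
  | nil =>
    intro m hm
    rw [go_nil, Finset.union_empty]
    exact hm
  | cons a l ih =>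
    intro m hm
    by_cases h : (if m.strict then m.thr < V a else m.thr ≤ V a) ∧
        M.Indep (insert a (m.acc : Set E))
    · rw [go_pos M J V m a l h, union_insert_eq]
      have h2 : M.Indep (((insert a m.acc : Finset E)) : Set E) := by
        rw [Finset.coe_insert]
        exact h.2
      exact ih ⟨m.strict, m.thr, insert a m.acc⟩ h2
    · rw [go_neg M J V m a l h]
      exact ih m hm

/-- Every accepted element passed the comparison with the threshold. -/
theorem go_passes (M : Matroid E) (J : ℕ) (V : E → ℝ) (l : List E) :
    ∀ m : ThrMem E, ∀ x ∈ OnlineRule.go (thrRule M J) V l m,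
      (if m.strict then m.thr < V x else m.thr ≤ V x) := by
  induction l with
  | nil =>
    intro m x hx
    rw [go_nil] at hx
    exact absurd hx (Finset.notMem_empty x)
  | cons a l ih =>
    intro m x hx
    by_cases h : (if m.strict then m.thr < V a else m.thr ≤ V a) ∧
        M.Indep (insert a (m.acc : Set E))
    · rw [go_pos M J V m a l h] at hx
      rcases Finset.mem_insert.mp hx with hxa | hx'
      · rw [hxa]
        exact h.1
      · exact ih ⟨m.strict, m.thr, insert a m.acc⟩ x hx'
    · rw [go_neg M J V m a l h] at hx
      exact ih m x hx

/-- Maximality: an arriving element that passes the comparison and is independent of the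
final accepted set has been accepted. -/
theorem go_maximal (M : Matroid E) (J : ℕ) (V : E → ℝ) (l : List E) :
    ∀ m : ThrMem E, ∀ e ∈ l, (if m.strict then m.thr < V e else m.thr ≤ V e) →
      M.Indep (insert e ((m.acc ∪ OnlineRule.go (thrRule M J) V l m : Finset E) : Set E)) →
      e ∈ m.acc ∪ OnlineRule.go (thrRule M J) V l m := by
  induction l with
  | nil =>
    intro m e he
    exact absurd he List.not_mem_nil
  | cons a l ih =>
    intro m e he ht hI
    by_cases h : (if m.strict then m.thr < V a else m.thr ≤ V a) ∧
        M.Indep (insert a (m.acc : Set E))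
    · rw [go_pos M J V m a l h, union_insert_eq] at hI ⊢
      rcases List.mem_cons.mp he with hea | he'
      · rw [hea]
        exact Finset.mem_union_left _ (Finset.mem_insert_self a m.acc)
      · exact ih ⟨m.strict, m.thr, insert a m.acc⟩ e he' ht hI
    · rw [go_neg M J V m a l h] at hI ⊢
      rcases List.mem_cons.mp he with hea | he'
      · exfalso
        apply h
        rw [← hea]
        refine ⟨ht, hI.subset ?_⟩
        apply Set.insert_subset_insert
        intro x hx
        rw [Finset.coe_union]
        exact Or.inl hx
      · exact ih m e he' ht hI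

/-- The accepted set of the threshold rule is independent, for every arrival list. -/
theorem thrRule_indep (M : Matroid E) (J : ℕ) (S V : E → ℝ) (r : Fin (J + 10)) (l : List E) :
    M.Indep ((thrRule M J).run S r V l : Set E) := by
  have hacc : (((thrRule M J).init S r : ThrMem E)).acc = ∅ := rfl
  have h := go_indep M J V l ((thrRule M J).init S r) (by rw [hacc]; simp)
  rw [hacc, Finset.empty_union] at h
  exact h

/-- In a strict mode, if exactly one non-loop element has its value above the largest
non-loop sample, it is accepted, whatever the arrival order. -/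
theorem thrRule_strict_ge (M : Matroid E) (J : ℕ) (S V : E → ℝ) (hV : ∀ e, 0 ≤ V e)
    (r : Fin (J + 10)) (hr : r.val < 4) (l : List E) (e : E) (he : e ∈ NL M) (hel : e ∈ l)
    (h1 : topS M S < V e) (h2 : ∀ e' ∈ NL M, e' ≠ e → V e' ≤ topS M S) :
    V e ≤ ∑ x ∈ (thrRule M J).run S r V l, V x := by
  have hacc : (((thrRule M J).init S r : ThrMem E)).acc = ∅ := rfl
  have hstr : (((thrRule M J).init S r : ThrMem E)).strict = true := by
    show decide (r.val < 4) = true
    exact decide_eq_true hr
  have hthr : (((thrRule M J).init S r : ThrMem E)).thr = topS M S := by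
    show topS M S / 2 ^ thrExp r.val = topS M S
    have h0 : thrExp r.val = 0 := by
      unfold thrExp
      omega
    rw [h0, pow_zero, div_one]
  have hrun : (thrRule M J).run S r V l =
      OnlineRule.go (thrRule M J) V l ((thrRule M J).init S r) := rfl
  have hAind : M.Indep ((thrRule M J).run S r V l : Set E) := thrRule_indep M J S V r l
  have hApass : ∀ x ∈ (thrRule M J).run S r V l, topS M S < V x := by
    intro x hx
    have h := go_passes M J V l ((thrRule M J).init S r) x hx
    rw [hstr, hthr] at h
    simpa using h
  have hAsub : ∀ x ∈ (thrRule M J).run S r V l, x = e := by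
    intro x hx
    by_contra hne
    have hxNL : x ∈ NL M := by
      unfold NL
      rw [Finset.mem_filter]
      refine ⟨Finset.mem_univ _, hAind.subset ?_⟩
      intro y hy
      rw [Set.mem_singleton_iff] at hy
      rw [hy]
      exact hx
    exact absurd (h2 x hxNL hne) (not_le.mpr (hApass x hx))
  have heInd : M.Indep ({e} : Set E) := by
    unfold NL at he
    exact (Finset.mem_filter.mp he).2
  have hmem : e ∈ (thrRule M J).run S r V l := by
    have hins : M.Indep (insert e (((((thrRule M J).init S r : ThrMem E)).acc ∪
        OnlineRule.go (thrRule M J) V l ((thrRule M J).init S r) : Finset E) : Set E)) := by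
      rw [hacc, Finset.empty_union]
      apply heInd.subset
      intro x hx
      rcases Set.mem_insert_iff.mp hx with hxe | hx'
      · exact hxe
      · exact hAsub x hx'
    have h := go_maximal M J V l ((thrRule M J).init S r) e hel
      (by rw [hstr, hthr]; simpa using h1) hins
    rw [hacc, Finset.empty_union] at h
    exact h
  exact Finset.single_le_sum (fun x _ => hV x) hmem

/-- In a weak mode the accepted set has at least as many elements as the part above the
threshold of any independent set, so the gain is at least the threshold times that number. -/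
theorem thrRule_weak_ge (M : Matroid E) (J : ℕ) (S V : E → ℝ) (hV : ∀ e, 0 ≤ V e)
    (r : Fin (J + 10)) (hr : 4 ≤ r.val) (l : List E) (hl : ∀ e, e ∈ l)
    (I : Finset E) (hI : M.Indep (I : Set E)) :
    topS M S / 2 ^ thrExp r.val *
        ((I.filter fun e => topS M S / 2 ^ thrExp r.val ≤ V e).card : ℝ)
      ≤ ∑ x ∈ (thrRule M J).run S r V l, V x := by
  have _ := hV
  have hT0 : 0 ≤ topS M S := by
    unfold topS
    exact NNReal.coe_nonneg _
  have hp0 : 0 ≤ topS M S / 2 ^ thrExp r.val := div_nonneg hT0 (by positivity)
  have hacc : (((thrRule M J).init S r : ThrMem E)).acc = ∅ := rfl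
  have hstr : (((thrRule M J).init S r : ThrMem E)).strict = false := by
    show decide (r.val < 4) = false
    exact decide_eq_false (by omega)
  have hthr : (((thrRule M J).init S r : ThrMem E)).thr = topS M S / 2 ^ thrExp r.val := rfl
  have hAind : M.Indep ((thrRule M J).run S r V l : Set E) := thrRule_indep M J S V r l
  have hApass : ∀ x ∈ (thrRule M J).run S r V l, topS M S / 2 ^ thrExp r.val ≤ V x := by
    intro x hx
    have h := go_passes M J V l ((thrRule M J).init S r) x hx
    rw [hstr, hthr] at h
    simpa using h
  have hcard : (I.filter fun e => topS M S / 2 ^ thrExp r.val ≤ V e).card ≤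
      ((thrRule M J).run S r V l).card := by
    by_contra hlt
    push Not at hlt
    have hI' : M.Indep ((I.filter fun e => topS M S / 2 ^ thrExp r.val ≤ V e : Finset E) :
        Set E) := by
      apply hI.subset
      intro x hx
      exact (Finset.mem_filter.mp hx).1
    obtain ⟨e, heI, heA, hins⟩ := hAind.augment_finset hI' hlt
    have hins' : M.Indep (insert e (((((thrRule M J).init S r : ThrMem E)).acc ∪
        OnlineRule.go (thrRule M J) V l ((thrRule M J).init S r) : Finset E) : Set E)) := by
      rw [hacc, Finset.empty_union]
      exact hins
    have h := go_maximal M J V l ((thrRule M J).init S r) e (hl e)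
      (by rw [hstr, hthr]; simpa using (Finset.mem_filter.mp heI).2) hins'
    rw [hacc, Finset.empty_union] at h
    exact heA h
  calc topS M S / 2 ^ thrExp r.val *
        ((I.filter fun e => topS M S / 2 ^ thrExp r.val ≤ V e).card : ℝ)
      ≤ topS M S / 2 ^ thrExp r.val * (((thrRule M J).run S r V l).card : ℝ) := by
        apply mul_le_mul_of_nonneg_left _ hp0
        exact_mod_cast hcard
    _ = ∑ x ∈ (thrRule M J).run S r V l, topS M S / 2 ^ thrExp r.val := by
        rw [Finset.sum_const, nsmul_eq_mul]
        ring
    _ ≤ ∑ x ∈ (thrRule M J).run S r V l, V x := Finset.sum_le_sum hApass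

end H80

end

end Vale.Agent.Lib.P331
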